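import Vale.Agent.P095.Fin

namespace Vale.Agent.Results.P095.ConjA

open scoped TensorProduct
open Vale.Agent.P101 Vale.Agent.P095

/-- Every action of a countable discrete amenable group on a separable, simple, nuclear,
Jiang-Su stable C*-algebra is cocycle conjugate to its tensor product with the trivial action on
the Jiang-Su algebra. -/
theorem result (A : Type*) [NonUnitalCStarAlgebra A] [TopologicalSpace.SeparableSpace A]
    (hs : IsSimple A) (hn : IsNuclear A) (Z : Type*) [CStarAlgebra Z] (hZ : IsJiangSu Z)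
    (hA : ∃ κ : A ⊗[ℂ] Z →ₗ[ℂ] A, IsMinTensor κ) (G : Type*) [Group G] [Countable G] [DecidableEq G]
    (hG : IsAmenable G) (α : G →* (A ≃⋆ₐ[ℂ] A)) (B : Type*) [NonUnitalCStarAlgebra B]
    (ι : A ⊗[ℂ] Z →ₗ[ℂ] B) (hι : IsMinTensor ι) :
    ∃ β : G →* (B ≃⋆ₐ[ℂ] B), (∀ g a z, β g (ι (a ⊗ₜ[ℂ] z)) = ι (α g a ⊗ₜ[ℂ] z)) ∧
      CocycleConj α β := by
  obtain ⟨β, hβ⟩ := hι.exists_act α
  exact ⟨β, hβ, main hs hn hZ hA hG α hι hβ⟩

end Vale.Agent.Results.P095.ConjA
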